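import Crest.Agent.R165.B1.B
import Crest.Agent.R165.B1.E

/-! # R165 block B1: local algebra of the Dirac operator, the function `H`, gauge, duality

All statements are proved in `R165/B1/*`:
* `A`: `tc_sq`, `tc_pos`, `corner_defect`, `opA_cSol`, `fld_cSol`, `opA_rotF`, `opA_refF`, `mas_le`, `cr_eq`, and
  explicit forms `opA_0..3`, `opp_0..3`, `edgeOf_0..3`, `cB_0..3`, `cSol_0..3`, `mas_0..3`, `b1_mem_box`, `om_eq`;
* `B`: `lap_eq_0..3` (`Δ = B A` explicitly, for every `s`), `harm_of_sol`;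
* `C`: `opA_antisym`, `bform`, `green`, `gaugeW`, `gaugeF`, `IsSign`, `opA_gauge`, `exists_gauge`, `eray_move`,
  `eray_symmDiff`, `eray_sq`;
* `D`: `exists_H_box`, `exists_H_rect`, `exists_H_kC`, `opA_kC`, `opA_sum`, `IsH.white`, `IsH.black`, `IsH.black_eq`;
* `E`: `lapN`, `lapN_ge`, `lapB_le`, `sq_le_grad`. -/
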